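import Vale.Agent.P281.H125.D.Sigma
import Vale.Agent.P281.MF.Div
import Vale.Agent.P281.J

/-!
# P281, T-Delta, block D2c-1 (helper152): divisors on `T × V`, pulled back from a manifold
-/

open Set Filter Metric Topology
open scoped ContDiff Manifold
open Vale.Agent.P281 Vale.Agent.P281.H125.D

noncomputable section

namespace Vale.Agent.P281.H152.D

section prime
variable {E : Type} [NormedAddCommGroup E] [NormedSpace ℂ E] {X : Type} [TopologicalSpace X]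
  [ChartedSpace E X]

/-- A closed set with reduced local equations contains no neighbourhood of a point. -/
theorem leq_not_nhds {D : Set X} {g : X → ℂ} {x : X} (hD : J.IsLocalEq E D g x) :
    ¬ ∀ᶠ z in 𝓝 x, z ∈ D := by
  intro h
  obtain ⟨V, hV, hxV, hg, hgD, hcl⟩ := hD
  have h0 : ∀ᶠ z in 𝓝 x, g z = 0 := by
    filter_upwards [h, hV.mem_nhds hxV] with z hz hzV using (hgD z hzV).1 hz
  have h1 : ∀ᶠ z in 𝓝 x, J.dif E g z = 0 := by
    filter_upwards [h0.eventually_nhds] with z hz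
    have h2 : g =ᶠ[𝓝 z] fun _ => (0 : ℂ) := hz
    rw [J.dif, h2.mfderiv_eq]
    exact mfderiv_const
  have h2 : x ∈ closure {z | z ∈ D ∧ J.dif E g z ≠ 0} := hcl ⟨h.self_of_nhds, hxV⟩
  exact (mem_closure_iff_frequently.1 h2) (h1.mono fun z hz hz' => hz'.2 hz)

end prime

/-- Finite unions of closed sets without interior points. -/
theorem off_union {A : Type*} [TopologicalSpace A] {J : Type*} {𝒜 : Set J} (h𝒜 : 𝒜.Finite)
    (F : J → Set A) (hc : ∀ D ∈ 𝒜, IsClosed (F D))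
    (hD : ∀ D ∈ 𝒜, ∀ x, ¬ ∀ᶠ z in 𝓝 x, z ∈ F D) :
    ∀ x, ∃ᶠ z in 𝓝 x, ∀ D ∈ 𝒜, z ∉ F D := by
  induction 𝒜, h𝒜 using Set.Finite.induction_on with
  | empty =>
    intro x
    rw [frequently_nhds_iff]
    exact fun U hxU _ => ⟨x, hxU, fun D hD => absurd hD (notMem_empty D)⟩
  | @insert D 𝒜 hDA h𝒜 ih =>
    intro x
    have h1 := ih (fun D hD => hc D (mem_insert_of_mem _ hD))
      (fun D' hD' => hD D' (mem_insert_of_mem _ hD')) x
    rw [frequently_nhds_iff] at h1 ⊢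
    intro U hxU hU
    obtain ⟨z, hzU, hzA⟩ := h1 U hxU hU
    have h2 : ∀ᶠ w in 𝓝 z, ∀ D ∈ 𝒜, w ∉ F D := by
      rw [Filter.eventually_all_finite h𝒜]
      exact fun D' hD' => (hc D' (mem_insert_of_mem _ hD')).isOpen_compl.mem_nhds (hzA D' hD')
    have h3 := hD D (mem_insert _ _) z
    rw [not_eventually] at h3
    obtain ⟨w, hw, hwA, hwU⟩ := (h3.and_eventually (h2.and (hU.mem_nhds hzU))).exists
    refine ⟨w, hwU, fun D' hD' => ?_⟩
    rcases mem_insert_iff.1 hD' with rfl | h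
    · exact hw
    · exact hwA D' h

variable {E : Type} [NormedAddCommGroup E] [NormedSpace ℂ E] {X : Type} [TopologicalSpace X]
  [ChartedSpace E X]
variable {n : ℕ} {V : Type*} [NormedAddCommGroup V] [NormedSpace ℂ V]
variable {P : Type*} [NormedAddCommGroup P] [NormedSpace ℂ P]

/-- The finite product of functions is a product over a `Finset`. -/
theorem fp_eq {𝒜 : Set (Set X)} (h𝒜 : 𝒜.Finite) (g : Set X → ℂ) :
    (∏ᶠ (D : Set X) (_ : D ∈ 𝒜), g D) = ∏ D ∈ h𝒜.toFinset, g D :=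
  finprod_mem_eq_finite_toFinset_prod g h𝒜

variable (E) in
/-- The manifold `X` is covered by the family `U (t, v)`, periodic in `v`. -/
structure IsCov (π : P → ((Fin n → ℝ) ≃L[ℝ] V)) (T : Set P) (U : P × V → X) : Prop where
  isOpen : IsOpen T
  hper : HolPer π T
  hol : ∀ w, w.1 ∈ T → ContMDiffAt 𝓘(ℂ, P × V) 𝓘(ℂ, E) ω U w
  per : ∀ w, w.1 ∈ T → ∀ k, U (tr π k w) = U w
  sec : ∀ w, w.1 ∈ T → ∃ σ : X → P × V, Tendsto σ (𝓝 (U w)) (𝓝 w) ∧ ∀ᶠ z in 𝓝 (U w), U (σ z) = z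

/-- The preimage of the divisors. -/
def ZU (U : P × V → X) (𝒜 : Set (Set X)) : Set (P × V) := {w | ∃ D ∈ 𝒜, U w ∈ D}

variable (E) in
/-- The local equations of the preimage of the divisors. -/
def LeU (T : Set P) (U : P × V → X) (𝒜 : Set (Set X)) (w : P × V) (h : P × V → ℂ) : Prop :=
  w.1 ∈ T ∧ ∃ e : Set X → X → ℂ, (∀ D ∈ 𝒜, J.IsLocalEq E D (e D) (U w)) ∧
    h =ᶠ[𝓝 w] fun w' => ∏ᶠ (D : Set X) (_ : D ∈ 𝒜), e D (U w')

section
variable {A : Type*} [NormedAddCommGroup A] [NormedSpace ℂ A]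

theorem comp_an {U : A → X} {g : X → ℂ} {w : A} (hU : ContMDiffAt 𝓘(ℂ, A) 𝓘(ℂ, E) ω U w)
    (hg : ContMDiffAt 𝓘(ℂ, E) 𝓘(ℂ, ℂ) ω g (U w)) : AnalyticAt ℂ (fun w' => g (U w')) w := by
  have h1 : ContMDiffAt 𝓘(ℂ, A) 𝓘(ℂ, ℂ) ω (fun w' => g (U w')) w :=
    ContMDiffAt.comp (g := g) (f := U) w hg hU
  exact (contMDiffAt_iff_contDiffAt.1 h1).analyticAt

theorem prod_an {U : A → X} {𝒜 : Set (Set X)} (h𝒜 : 𝒜.Finite) {e : Set X → X → ℂ} {w : A}
    (hU : ContMDiffAt 𝓘(ℂ, A) 𝓘(ℂ, E) ω U w)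
    (hg : ∀ D ∈ 𝒜, ContMDiffAt 𝓘(ℂ, E) 𝓘(ℂ, ℂ) ω (e D) (U w)) :
    AnalyticAt ℂ (fun w' => ∏ᶠ (D : Set X) (_ : D ∈ 𝒜), e D (U w')) w := by
  have h1 : (fun w' => ∏ᶠ (D : Set X) (_ : D ∈ 𝒜), e D (U w')) =
      fun w' => ∏ D ∈ h𝒜.toFinset, e D (U w') := by
    funext w'
    exact fp_eq h𝒜 fun D => e D (U w')
  rw [h1]
  exact Finset.analyticAt_fun_prod _ fun D hD => comp_an hU (hg D (h𝒜.mem_toFinset.1 hD))

end

theorem leq_mem {D : Set X} {g : X → ℂ} {x : X} (h : J.IsLocalEq E D g x) :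
    ∀ᶠ z in 𝓝 x, (z ∈ D ↔ g z = 0) := by
  obtain ⟨V, hV, hxV, -, hgD, -⟩ := h
  filter_upwards [hV.mem_nhds hxV] with z hz using hgD z hz

theorem leq_near {D : Set X} {g : X → ℂ} {x : X} (h : J.IsLocalEq E D g x) :
    ∀ᶠ z in 𝓝 x, J.IsLocalEq E D g z := by
  obtain ⟨V, hV, hxV, h1, h2, h3⟩ := h
  filter_upwards [hV.mem_nhds hxV] with z hz using ⟨V, hV, hz, h1, h2, h3⟩

theorem leq_hol {D : Set X} {g : X → ℂ} {x : X} (h : J.IsLocalEq E D g x) :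
    ContMDiffAt 𝓘(ℂ, E) 𝓘(ℂ, ℂ) ω g x := by
  obtain ⟨V, hV, hxV, h1, -, -⟩ := h
  exact h1 x hxV

variable [FiniteDimensional ℂ E] [FiniteDimensional ℂ P] [FiniteDimensional ℂ V]
  [IsManifold 𝓘(ℂ, E) ω X]

/-- **The divisor datum** of the preimage of the divisors. -/
theorem IsCov.divDatum {π : P → ((Fin n → ℝ) ≃L[ℝ] V)} {T : Set P} {U : P × V → X}
    (h : IsCov E π T U) {𝒜 : Set (Set X)} (h𝒜 : 𝒜.Finite) (hp : ∀ D ∈ 𝒜, J.IsPrime E D) :
    DivDatum π T (ZU U 𝒜) (LeU E T U 𝒜) where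
  ex := by
    intro w hw
    have h1 : ∀ D : Set X, ∃ g : X → ℂ, D ∈ 𝒜 → J.IsLocalEq E D g (U w) := by
      intro D
      by_cases hD : D ∈ 𝒜
      · obtain ⟨g, hg⟩ := (hp D hD).2.1 (U w)
        exact ⟨g, fun _ => hg⟩
      · exact ⟨0, fun h => absurd h hD⟩
    choose e he using h1
    exact ⟨fun w' => ∏ᶠ (D : Set X) (_ : D ∈ 𝒜), e D (U w'), hw, e, he, EventuallyEq.rfl⟩
  an := by
    rintro w g ⟨hw, e, he, hge⟩
    exact (prod_an h𝒜 (h.hol w hw) fun D hD => leq_hol (he D hD)).congr hge.symm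
  zero := by
    rintro w g ⟨hw, e, he, hge⟩
    have h1 : ∀ᶠ w' in 𝓝 w, ∀ D ∈ 𝒜, (U w' ∈ D ↔ e D (U w') = 0) := by
      rw [Filter.eventually_all_finite h𝒜]
      exact fun D hD => (h.hol w hw).continuousAt.eventually (leq_mem (he D hD))
    filter_upwards [h1, hge] with w' h1 h2
    rw [h2, fp_eq h𝒜 fun D => e D (U w'), Finset.prod_eq_zero_iff]
    constructor
    · rintro ⟨D, hD, h0⟩
      rw [h𝒜.mem_toFinset] at hD
      exact ⟨D, hD, (h1 D hD).2 h0⟩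
    · rintro ⟨D, hD, h0⟩
      exact ⟨D, h𝒜.mem_toFinset.2 hD, (h1 D hD).1 h0⟩
  near := by
    rintro w g ⟨hw, e, he, hge⟩
    have h1 : ∀ᶠ w' in 𝓝 w, ∀ D ∈ 𝒜, J.IsLocalEq E D (e D) (U w') := by
      rw [Filter.eventually_all_finite h𝒜]
      exact fun D hD => (h.hol w hw).continuousAt.eventually (leq_near (he D hD))
    filter_upwards [h1, hge.eventuallyEq_nhds, (h.isOpen.preimage continuous_fst).mem_nhds hw]
      with w' h1 h2 h3 using ⟨h3, e, h1, h2⟩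
  unit := by
    rintro w g g' ⟨hw, e, he, hge⟩ ⟨-, e', he', hge'⟩
    have h1 : ∀ D : Set X, ∃ u : X → ℂ, D ∈ 𝒜 → ContMDiffAt 𝓘(ℂ, E) 𝓘(ℂ, ℂ) ω u (U w) ∧
        u (U w) ≠ 0 ∧ ∀ᶠ z in 𝓝 (U w), e' D z = e D z * u z := by
      intro D
      by_cases hD : D ∈ 𝒜
      · obtain ⟨u, hu1, hu2, hu3⟩ := MF.leq_unit (he D hD) (he' D hD)
        exact ⟨u, fun _ => ⟨hu1, hu2, hu3⟩⟩
      · exact ⟨0, fun h => absurd h hD⟩
    choose u hu using h1
    refine ⟨fun w' => ∏ᶠ (D : Set X) (_ : D ∈ 𝒜), u D (U w'),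
      prod_an h𝒜 (h.hol w hw) fun D hD => (hu D hD).1, ?_, ?_⟩
    · beta_reduce
      rw [fp_eq h𝒜 fun D => u D (U w)]
      exact Finset.prod_ne_zero_iff.2 fun D hD => (hu D (h𝒜.mem_toFinset.1 hD)).2.1
    · have h2 : ∀ᶠ w' in 𝓝 w, ∀ D ∈ 𝒜, e' D (U w') = e D (U w') * u D (U w') := by
        rw [Filter.eventually_all_finite h𝒜]
        exact fun D hD => (h.hol w hw).continuousAt.eventually (hu D hD).2.2
      filter_upwards [h2, hge, hge'] with w' h2 h3 h4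
      rw [h3, h4, fp_eq h𝒜 fun D => u D (U w'), fp_eq h𝒜 fun D => e D (U w'),
        fp_eq h𝒜 fun D => e' D (U w'), ← Finset.prod_mul_distrib]
      refine Finset.prod_congr rfl fun D hD => ?_
      rw [h2 D (h𝒜.mem_toFinset.1 hD), mul_comm]
  per := by
    rintro w g - ⟨hw, e, he, hge⟩ k
    refine ⟨hw, e, fun D hD => ?_, ?_⟩
    · rw [h.per w hw k]
      exact he D hD
    · have h1 : Tendsto (tr π (-k)) (𝓝 (tr π k w)) (𝓝 w) := by
        have := (tr_continuousAt h.isOpen h.hper (w := tr π k w) hw (-k)).tendsto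
        rwa [tr_neg_tr] at this
      filter_upwards [h1.eventually hge, (h.isOpen.preimage continuous_fst).mem_nhds
        (show (tr π k w).1 ∈ T from hw)] with w' h2 h3
      rw [h2, h.per w' h3 (-k)]
  dense := by
    intro w hw hcon
    obtain ⟨σ, hσ1, hσ2⟩ := h.sec w hw
    have h1 : ∀ᶠ z in 𝓝 (U w), ∃ D ∈ 𝒜, z ∈ D := by
      filter_upwards [hσ1.eventually hcon, hσ2] with z h2 h3
      obtain ⟨D, hD, h4⟩ := h2
      exact ⟨D, hD, by rwa [h3] at h4⟩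
    refine (off_union h𝒜 (fun D => D) (fun D hD => (hp D hD).1) (fun D hD x => ?_) (U w)) ?_
    · obtain ⟨g, hg⟩ := (hp D hD).2.1 x
      exact leq_not_nhds hg
    · filter_upwards [h1] with z hz hz'
      obtain ⟨D, hD, h4⟩ := hz
      exact hz' D hD h4

omit [FiniteDimensional ℂ E] [FiniteDimensional ℂ V] [IsManifold 𝓘(ℂ, E) ω X] in
/-- A holomorphic map `W : V → X` whose image is not contained in one of the divisors. -/
theorem off_fibre {W : V → X} (hW : ∀ v, ContMDiffAt 𝓘(ℂ, V) 𝓘(ℂ, E) ω W v) {𝒜 : Set (Set X)}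
    (h𝒜 : 𝒜.Finite) (hp : ∀ D ∈ 𝒜, J.IsPrime E D) (hn : ∀ D ∈ 𝒜, ∃ v, W v ∉ D) :
    ∀ v, ∃ᶠ v' in 𝓝 v, ∀ D ∈ 𝒜, W v' ∉ D := by
  have hWc : Continuous W := continuous_iff_continuousAt.2 fun v => (hW v).continuousAt
  refine off_union h𝒜 (fun D => W ⁻¹' D) (fun D hD => (hp D hD).1.preimage hWc) fun D hD => ?_
  set O : Set V := {v | ∀ᶠ v' in 𝓝 v, W v' ∈ D} with hO
  have hOo : IsOpen O := by
    rw [isOpen_iff_mem_nhds]
    exact fun v hv => eventually_eventually_nhds.2 hv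
  have hOc : IsClosed O := by
    rw [← closure_subset_iff_isClosed]
    intro v hv
    obtain ⟨g, hg⟩ := (hp D hD).2.1 (W v)
    have h1 : ∀ᶠ v' in 𝓝 v, (W v' ∈ D ↔ g (W v') = 0) ∧ AnalyticAt ℂ (fun v => g (W v)) v' := by
      filter_upwards [(hW v).continuousAt.eventually (leq_mem hg),
        (hW v).continuousAt.eventually (leq_near hg)] with v' h1 h2
      exact ⟨h1, comp_an (hW v') (leq_hol h2)⟩
    obtain ⟨ε, hε, hball⟩ := Metric.eventually_nhds_iff_ball.1 h1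
    obtain ⟨v₁, hv₁, hv₁O⟩ := mem_closure_iff_nhds.1 hv (ball v ε) (ball_mem_nhds v hε)
    have h2 : (fun v => g (W v)) =ᶠ[𝓝 v₁] 0 := by
      filter_upwards [hv₁O, isOpen_ball.mem_nhds hv₁] with v' h3 h4 using (hball v' h4).1.1 h3
    have h3 : AnalyticOnNhd ℂ (fun v => g (W v)) (ball v ε) := fun v' hv' => (hball v' hv').2
    have h4 := h3.eqOn_zero_of_preconnected_of_eventuallyEq_zero
      (convex_ball v ε).isPreconnected hv₁ h2
    show ∀ᶠ v' in 𝓝 v, W v' ∈ D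
    filter_upwards [ball_mem_nhds v hε] with v' hv' using (hball v' hv').1.2 (h4 hv')
  intro v hv
  have h5 : O = univ := (isClopen_iff.1 ⟨hOc, hOo⟩).resolve_left fun h0 => by
    have : v ∈ O := hv
    rw [h0] at this
    exact this
  obtain ⟨v₀, hv₀⟩ := hn D hD
  have h6 : v₀ ∈ O := by rw [h5]; trivial
  exact hv₀ (show ∀ᶠ v' in 𝓝 v₀, W v' ∈ D from h6).self_of_nhds

end Vale.Agent.P281.H152.D
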