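import Vale.Agent.P281.H64.TD.SpecB
import Vale.Agent.P281.H152.D.Cov

/-!
# P281, T-Delta, block D2c-1 (helper152): the divisor datum of a family of tori
-/

open Set Filter Metric Topology
open scoped ContDiff Manifold
open Vale.Agent.P281 Vale.Agent.P281.H713 Vale.Agent.P281.H125.D
open Vale.Agent.P281.H64.TD (IsTorM)
open Vale.Agent.P281.H64.TU (Tame)

noncomputable section

namespace Vale.Agent.P281.H152.D

variable {E E' : Type} [NormedAddCommGroup E] [NormedSpace ℂ E]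
  [NormedAddCommGroup E'] [NormedSpace ℂ E']
variable {X Y : Type} [TopologicalSpace X] [ChartedSpace E X]
  [TopologicalSpace Y] [ChartedSpace E' Y]
variable {V : Type} [NormedAddCommGroup V] [InnerProductSpace ℂ V] [FiniteDimensional ℂ V]
variable {n d : ℕ} {T : Tame (Fin d → ℂ) X} {f : X → Y} {S : Set Y}
  {Q : (Fin n → ℝ) → (Fin n → ℝ) → ℝ} {ι : Type} {U : ι → Set Y}
  {π : ι → Y → ((Fin n → ℝ) ≃L[ℝ] V)} {u : ι → Y → V → X}

/-- The open set of the parameters. -/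
def parT (U : ι → Set Y) (a : ι) (χ : OpenPartialHomeomorph Y E') : Set E' :=
  χ.target ∩ χ.symm ⁻¹' U a

/-- The periods in a chart. -/
def parP (π : ι → Y → ((Fin n → ℝ) ≃L[ℝ] V)) (a : ι) (χ : OpenPartialHomeomorph Y E') :
    E' → ((Fin n → ℝ) ≃L[ℝ] V) := fun t => π a (χ.symm t)

/-- The covering in a chart. -/
def parU (u : ι → Y → V → X) (a : ι) (χ : OpenPartialHomeomorph Y E') : E' × V → X :=
  fun w => u a (χ.symm w.1) w.2

/-- The restriction of the covering to a fibre. -/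
theorem fib_hol (hM : IsTorM E E' d T f S Q U π u) (a : ι) {y : Y} (hy : y ∈ U a) (v : V) :
    ContMDiffAt 𝓘(ℂ, V) 𝓘(ℂ, E) ω (u a y) v := by
  have h1 : ContMDiffAt 𝓘(ℂ, V) (𝓘(ℂ, E').prod 𝓘(ℂ, V)) ω (fun v : V => (y, v)) v :=
    contMDiffAt_const.prodMk contMDiffAt_id
  exact ContMDiffAt.comp (g := fun z : Y × V => u a z.1 z.2) (f := fun v : V => (y, v)) v
    (hM.uhol a y hy v) h1

variable [IsManifold 𝓘(ℂ, E') ω Y]

theorem symm_hol {χ : OpenPartialHomeomorph Y E'} (hχ : χ ∈ IsManifold.maximalAtlas 𝓘(ℂ, E') ω Y)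
    {t : E'} (ht : t ∈ χ.target) : ContMDiffAt 𝓘(ℂ, E') 𝓘(ℂ, E') ω χ.symm t :=
  (contMDiffOn_symm_of_mem_maximalAtlas hχ).contMDiffAt (χ.open_target.mem_nhds ht)

/-- The family of tori is a covering family, in a chart of the base. -/
theorem isCov (hf : Continuous f) (hM : IsTorM E E' d T f S Q U π u) (a : ι)
    {χ : OpenPartialHomeomorph Y E'} (hχ : χ ∈ IsManifold.maximalAtlas 𝓘(ℂ, E') ω Y) :
    IsCov E (parP π a χ) (parT U a χ) (parU u a χ) where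
  isOpen := χ.continuousOn_symm.isOpen_inter_preimage χ.open_target (hM.isOpen a)
  hper := by
    rintro x t ⟨ht1, ht2⟩
    have h1 : ContMDiffAt 𝓘(ℂ, E') 𝓘(ℂ, V) ω (fun t => π a (χ.symm t) x) t :=
      ContMDiffAt.comp (g := fun y => π a y x) (f := χ.symm) t (hM.hol a x _ ht2) (symm_hol hχ ht1)
    exact ((contMDiffAt_iff_contDiffAt.1 h1).differentiableAt (by simp)).differentiableWithinAt
  hol := by
    rintro ⟨t, v⟩ ⟨ht1, ht2⟩
    have h1 : ContMDiffAt 𝓘(ℂ, E' × V) 𝓘(ℂ, E') ω (fun w : E' × V => χ.symm w.1) (t, v) :=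
      ContMDiffAt.comp (g := χ.symm) (f := fun w : E' × V => w.1) (t, v) (symm_hol hχ ht1)
        (contMDiffAt_iff_contDiffAt.2 contDiffAt_fst)
    have h2 : ContMDiffAt 𝓘(ℂ, E' × V) 𝓘(ℂ, V) ω (fun w : E' × V => w.2) (t, v) :=
      contMDiffAt_iff_contDiffAt.2 contDiffAt_snd
    exact ContMDiffAt.comp (g := fun z : Y × V => u a z.1 z.2)
      (f := fun w : E' × V => (χ.symm w.1, w.2)) (t, v) (hM.uhol a _ ht2 v) (h1.prodMk h2)
  per := by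
    rintro ⟨t, v⟩ ⟨-, ht2⟩ k
    exact hM.per a _ ht2 v k
  sec := by
    rintro ⟨t, v⟩ ⟨ht1, ht2⟩
    obtain ⟨ζ, hζ1, hζ2, hζ3, -, -⟩ := hM.chart a _ ht2 v
    have h0 : f (u a (χ.symm t) v) = χ.symm t := hM.mem a _ ht2 v
    have hs : χ.symm t ∈ χ.source := χ.map_target ht1
    have h1 : Tendsto (fun z => χ (f z)) (𝓝 (u a (χ.symm t) v)) (𝓝 t) := by
      have h2 : Tendsto f (𝓝 (u a (χ.symm t) v)) (𝓝 (χ.symm t)) := by
        have := hf.tendsto (u a (χ.symm t) v)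
        rwa [h0] at this
      have h3 : Tendsto χ (𝓝 (χ.symm t)) (𝓝 t) := by
        have := (χ.continuousAt hs).tendsto
        rwa [χ.right_inv ht1] at this
      exact h3.comp h2
    have h2 : Tendsto ζ (𝓝 (u a (χ.symm t) v)) (𝓝 v) := by
      have := hζ1.continuousAt.tendsto
      rwa [hζ2] at this
    refine ⟨fun z => (χ (f z), ζ z), h1.prodMk_nhds h2, ?_⟩
    have h3 : ∀ᶠ z in 𝓝 (u a (χ.symm t) v), f z ∈ χ.source :=
      hf.continuousAt.eventually (by rw [h0]; exact χ.open_source.mem_nhds hs)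
    filter_upwards [hζ3, h3] with z h4 h5
    show u a (χ.symm (χ (f z))) (ζ z) = z
    rw [χ.left_inv h5, h4]

variable [FiniteDimensional ℂ E] [FiniteDimensional ℂ E'] [IsManifold 𝓘(ℂ, E) ω X]

/-- **D2c-1**: the divisor datum of a family of tori, in a chart of the base. -/
theorem divDatum (hf : Continuous f) (hM : IsTorM E E' d T f S Q U π u) {𝒜 : Set (Set X)}
    (h𝒜 : 𝒜.Finite) (hp : ∀ D ∈ 𝒜, J.IsPrime E D) (a : ι)
    {χ : OpenPartialHomeomorph Y E'} (hχ : χ ∈ IsManifold.maximalAtlas 𝓘(ℂ, E') ω Y) :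
    DivDatum (fun t => π a (χ.symm t)) (χ.target ∩ χ.symm ⁻¹' U a)
      {w : E' × V | ∃ D ∈ 𝒜, u a (χ.symm w.1) w.2 ∈ D}
      (fun w h => w.1 ∈ χ.target ∩ χ.symm ⁻¹' U a ∧ ∃ e : Set X → X → ℂ,
        (∀ D ∈ 𝒜, J.IsLocalEq E D (e D) (u a (χ.symm w.1) w.2)) ∧
        h =ᶠ[𝓝 w] fun w' => ∏ᶠ (D : Set X) (_ : D ∈ 𝒜), e D (u a (χ.symm w'.1) w'.2)) :=
  (isCov hf hM a hχ).divDatum h𝒜 hp

omit [FiniteDimensional ℂ E] [FiniteDimensional ℂ E'] [IsManifold 𝓘(ℂ, E) ω X] in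
theorem par_isOpen (hM : IsTorM E E' d T f S Q U π u) (a : ι) (χ : OpenPartialHomeomorph Y E') :
    IsOpen (χ.target ∩ χ.symm ⁻¹' U a) :=
  χ.continuousOn_symm.isOpen_inter_preimage χ.open_target (hM.isOpen a)

omit [FiniteDimensional ℂ E] [FiniteDimensional ℂ E'] [IsManifold 𝓘(ℂ, E) ω X] in
theorem par_holPer (hf : Continuous f) (hM : IsTorM E E' d T f S Q U π u) (a : ι)
    {χ : OpenPartialHomeomorph Y E'} (hχ : χ ∈ IsManifold.maximalAtlas 𝓘(ℂ, E') ω Y) :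
    HolPer (fun t => π a (χ.symm t)) (χ.target ∩ χ.symm ⁻¹' U a) :=
  (isCov hf hM a hχ).hper

omit [FiniteDimensional ℂ E] [FiniteDimensional ℂ E'] [IsManifold 𝓘(ℂ, E) ω X]
  [IsManifold 𝓘(ℂ, E') ω Y] in
/-- The divisors contain no open subset of the fibre over `y`, if they do not contain the fibre. -/
theorem fib_off (hM : IsTorM E E' d T f S Q U π u) {𝒜 : Set (Set X)} (h𝒜 : 𝒜.Finite)
    (hp : ∀ D ∈ 𝒜, J.IsPrime E D) (a : ι) {y : Y} (hy : y ∈ U a)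
    (hn : ∀ D ∈ 𝒜, ¬ f ⁻¹' {y} ⊆ D) (v : V) :
    ∃ᶠ v' in 𝓝 v, ∀ D ∈ 𝒜, u a y v' ∉ D := by
  refine off_fibre (fib_hol hM a hy) h𝒜 hp (fun D hD => ?_) v
  obtain ⟨x, hx, hxD⟩ := not_subset.1 (hn D hD)
  have hfx : f x = y := hx
  obtain ⟨v', hv'⟩ := hM.surj a x (by rw [hfx]; exact hy)
  rw [hfx] at hv'
  exact ⟨v', by rwa [hv']⟩

omit [FiniteDimensional ℂ E] [FiniteDimensional ℂ E'] [IsManifold 𝓘(ℂ, E) ω X]
  [IsManifold 𝓘(ℂ, E') ω Y] in
/-- A point off the divisor datum on each fibre. -/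
theorem exists_off (hM : IsTorM E E' d T f S Q U π u) {𝒜 : Set (Set X)} (h𝒜 : 𝒜.Finite)
    (hp : ∀ D ∈ 𝒜, J.IsPrime E D) (a : ι) (χ : OpenPartialHomeomorph Y E') {t : E'}
    (ht : t ∈ χ.target ∩ χ.symm ⁻¹' U a)
    (hn : ∀ D ∈ 𝒜, ¬ f ⁻¹' {χ.symm t} ⊆ D) :
    ∃ v : V, (t, v) ∉ {w : E' × V | ∃ D ∈ 𝒜, u a (χ.symm w.1) w.2 ∈ D} := by
  obtain ⟨v, hv⟩ := (fib_off hM h𝒜 hp a ht.2 hn 0).exists
  exact ⟨v, fun ⟨D, hD, h⟩ => hv D hD h⟩

end Vale.Agent.P281.H152.D
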